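import Vale.Agent.P365.T2.H685.KTopSpec
import Vale.Agent.P365.T2.H984.M4Bind

/-!
# P365-T2, K-BIND: the scalar fields of `StW.Ok` and the assembly of `KBind` (helper704)
-/

set_option linter.all false

namespace P365T2.H704

open P365L P365O P365T1 P365L.TL P365T1.Conc Matrix Complex MeasureTheory Filter Topology Set
open Vale.Agent.P365.J376 P365T2.SeqG P365T2.ConcG P365V4.Free P365T2.H213 P365T2.H685
  P365T2.H984
open scoped ComplexConjugate ENNReal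

/-! ### numbers -/

theorem four_e0S_le {rs : ℕ} (hrs : 2 ≤ rs) (i : ℕ) : 4 * e0S 8 rs i ≤ 1 := by
  have h2 := two_le_cast_rr (β := 8) hrs i
  have h3 : e0S 8 rs i ≤ Real.exp (-2) := Real.exp_le_exp.2 (by linarith)
  have h4 : Real.exp (-2) ≤ 1 / 4 := by
    rw [Real.exp_neg, ← one_div]
    have h5 : (2.7182818283 : ℝ) < Real.exp 1 := Real.exp_one_gt_d9
    have h6 : Real.exp 2 = Real.exp 1 * Real.exp 1 := by
      rw [← Real.exp_add]
      norm_num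
    exact one_div_le_one_div_of_le (by norm_num) (by nlinarith)
  linarith

/-- the good part of the stage is long, and long against `r + r ^ 5` -/
theorem ev_long {rs : ℕ} (hrs : 2 ≤ rs) {η : ℝ} (hη : 0 < η) :
    ∃ i₀ : ℕ, ∀ i, i₀ ≤ i → 1 / η ≤ Sgood rs i ∧ (rr 8 rs i : ℝ) + aS 8 rs i ≤ η * Sgood rs i := by
  obtain ⟨i₁, h1⟩ := ev_small hrs hη
  obtain ⟨i₂, h2⟩ := ev_small hrs (show (0 : ℝ) < η ^ 1 by positivity)
  obtain ⟨i₃, h3⟩ := exists_nat_ge (1 / η)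
  refine ⟨max i₁ i₃, fun i hi => ?_⟩
  have hC : 0 ≤ Real.log (48923 * 10 ^ 6) := Real.log_nonneg (by norm_num)
  have ha : 0 ≤ aS 8 rs i := aS_nonneg rs i
  have hr : (2 : ℝ) ≤ rr 8 rs i := two_le_cast_rr (β := 8) hrs i
  have h4 := h1 i (le_trans (le_max_left _ _) hi)
  refine ⟨?_, by linarith⟩
  have h5 : (i : ℝ) < rr 8 rs i := by exact_mod_cast lt_rr (β := 8) hrs i
  have h6 : (i₃ : ℝ) ≤ i := by exact_mod_cast le_trans (le_max_right _ _) hi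
  have h7 : 2 * (rr 8 rs i : ℝ) ≤ rr 8 rs (i + 1) := by
    rw [rr_succ_cast]
    have h8 : (rr 8 rs i : ℝ) ^ 2 ≤ (rr 8 rs i : ℝ) ^ 8 :=
      pow_le_pow_right₀ (by linarith) (by norm_num)
    nlinarith
  unfold Sgood
  linarith

/-- the last radius is large against the length of the stage -/
theorem ev_NS {rs : ℕ} (hrs : 2 ≤ rs) {η : ℝ} (hη : 0 < η) :
    ∃ i₀ : ℕ, ∀ i, i₀ ≤ i → ∀ I, i + 2 ≤ I → Sgood rs i / η ≤ rr 8 rs I := by
  obtain ⟨i₀, h0⟩ := ev_long hrs hη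
  refine ⟨i₀, fun i hi I hI => ?_⟩
  have h1 := (h0 i hi).1
  have hr : (2 : ℝ) ≤ rr 8 rs (i + 1) := two_le_cast_rr (β := 8) hrs (i + 1)
  have hr0 : (2 : ℝ) ≤ rr 8 rs i := two_le_cast_rr (β := 8) hrs i
  have h2 : Sgood rs i ≤ rr 8 rs (i + 1) := by
    unfold Sgood
    linarith
  have h3 : 0 < 1 / η := one_div_pos.2 hη
  have h4 : Sgood rs i / η ≤ (rr 8 rs (i + 1) : ℝ) ^ 2 := by
    rw [div_eq_mul_one_div, sq]
    exact mul_le_mul h2 (h1.trans h2) h3.le (by linarith)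
  have h5 : (rr 8 rs (i + 1) : ℝ) ^ 2 ≤ rr 8 rs (i + 2) := by
    rw [show i + 2 = (i + 1) + 1 from rfl, rr_succ_cast (β := 8) rs (i + 1)]
    exact pow_le_pow_right₀ (by linarith) (by norm_num)
  have h6 : (rr 8 rs (i + 2) : ℝ) ≤ rr 8 rs I := by
    exact_mod_cast rr_mono (β := 8) (show 1 ≤ rs by omega) hI
  linarith

/-! ### the scalar fields -/

section fields

variable {lam : ℝ} {yf : ℕ → ℤ × ℤ} {Vsf : ℕ → ℤ × ℤ → ℝ} {rs I N : ℕ} [NeZero N] {b : ℝ}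
  {fl : (PP 8 yf rs I).Lb → Tor N → ℝ} {b' : ℝ} {ρ : Measure ℝ}

theorem mov_of_w (hD : (World lam yf Vsf rs I N b fl b').Ok ρ) {i : ℕ} (hi : i ≤ I)
    {l : Tor N → (World lam yf Vsf rs I N b fl b').Λ} {x : Tor N}
    (hw : (World lam yf Vsf rs I N b fl b').Ws (i + 1) l x ≠ 0) :
    (World lam yf Vsf rs I N b fl b').mov (l x) := by
  by_contra h
  exact hw (hD.toOk.Ws_of_not_mov (show i + 1 ≤ I + 1 by omega) h)

/-- the moving weight is at least `exp (-(r_i + a_i))` -/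
theorem w_lower (hD : (World lam yf Vsf rs I N b fl b').Ok ρ) {i : ℕ} (hi : i ≤ I)
    {l : Tor N → (World lam yf Vsf rs I N b fl b').Λ} {x : Tor N}
    (hw : (World lam yf Vsf rs I N b fl b').Ws (i + 1) l x ≠ 0) :
    Real.exp (-((rr 8 rs i : ℝ) + aS 8 rs i)) ≤
      (World lam yf Vsf rs I N b fl b').Ws (i + 1) l x := by
  have hm := mov_of_w hD hi hw
  have h0 : Real.exp (-((rr 8 rs i : ℝ) + aS 8 rs i)) =
      e0S 8 rs i * Real.exp (-(aS 8 rs i)) := by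
    rw [e0S, ← Real.exp_add]
    congr 1
    ring
  have h1 : Real.exp (-(aS 8 rs i)) ≤ 1 :=
    Real.exp_le_one_iff.2 (by linarith [aS_nonneg (β := 8) rs i])
  have h2 := e0S_pos (β := 8) rs i
  rw [h0]
  by_cases hc : (World lam yf Vsf rs I N b fl b').cen i l x
  · refine le_trans ?_ (hD.toOk.Ws_cen (show i ≤ I from hi) hc).1
    show e0S 8 rs i * Real.exp (-(aS 8 rs i)) ≤ e0S 8 rs i
    nlinarith
  · exact (hD.toOk.Ws_bulk (show i ≤ I from hi) hm hc).1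

/-- the total profile at the beginning of the stage -/
theorem e_upper (hD : (World lam yf Vsf rs I N b fl b').Ok ρ) (hrs : 2 ≤ rs)
    (hb' : b' ≤ e0S 8 rs I) {i : ℕ} (hi : i ≤ I)
    (l : Tor N → (World lam yf Vsf rs I N b fl b').Λ) (x : Tor N) :
    (World lam yf Vsf rs I N b fl b').us (i + 1) l x +
      (World lam yf Vsf rs I N b fl b').Ws (i + 1) l x ≤ 4 * e0S 8 rs i := by
  have h1 := (Wf_prf hD hrs hb' hi (sc := 1) (sb := 1) one_pos le_rfl le_rfl).le l x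
  have h2 := hD.prof_diag (i := i) hi 1 l x
  rw [h2, one_mul] at h1
  exact h1

end fields

/-! ### the assembly -/

section asm

variable {lam E : ℝ} {yf : ℕ → ℤ × ℤ} {Vsf : ℕ → ℤ × ℤ → ℝ} {rs I N : ℕ} [NeZero N] {b : ℝ}
  {fl : (PP 8 yf rs I).Lb → Tor N → ℝ} {b' : ℝ} {ρ : Measure ℝ}

theorem dens_of (hA : AdmS 8 lam yf Vsf rs I) {i : ℕ} {S : ℝ} :
    ∃ Dk : (stOf (World lam yf Vsf rs I N b fl b') i S).Λ → ℝ, (∀ k, 0 ≤ Dk k) ∧
      (∀ k, DensLe (Dk k) ((stOf (World lam yf Vsf rs I N b fl b') i S).ν k)) ∧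
      ∑ k, (stOf (World lam yf Vsf rs I N b fl b') i S).p k * Dk k ≤ 2 / lam :=
  ⟨DS 8 lam yf rs I,
    fun k => (DS_pos (β := 8) (lam := lam) (yf := yf) (Vsf := Vsf) (rs := rs) (I := I) hA k).le,
    nuD_densLe (β := 8) (lam := lam) (yf := yf) (Vsf := Vsf) (rs := rs) (I := I) hA,
    sum_pS_DS (β := 8) (lam := lam) (yf := yf) (Vsf := Vsf) (rs := rs) (I := I) hA⟩

theorem supp_of (hA : AdmS 8 lam yf Vsf rs I) {i : ℕ} {S : ℝ}
    (k : (stOf (World lam yf Vsf rs I N b fl b') i S).Λ) :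
    (stOf (World lam yf Vsf rs I N b fl b') i S).ν k (Set.Icc (-lam) lam)ᶜ = 0 :=
  nuD_supp (β := 8) (lam := lam) (yf := yf) (Vsf := Vsf) (rs := rs) (I := I) hA k

theorem mov_of (hA : AdmS 8 lam yf Vsf rs I) (hD : (World lam yf Vsf rs I N b fl b').Ok ρ)
    {i : ℕ} (hi : i ≤ I) {S : ℝ}
    (l : Tor N → (stOf (World lam yf Vsf rs I N b fl b') i S).Λ) (x : Tor N)
    (hw : (stOf (World lam yf Vsf rs I N b fl b') i S).w l x ≠ 0) :
    (stOf (World lam yf Vsf rs I N b fl b') i S).ν (l x) = nuS lam (lam * tau0 / 2) :=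
  nuD_mov (β := 8) (lam := lam) (yf := yf) (Vsf := Vsf) (rs := rs) (I := I) hA
    (mov_of_w hD hi hw)

/-- **`StW.Ok` from the non-scalar fields** -/
theorem ok_of (hA : AdmS 8 lam yf Vsf rs I) (hD : (World lam yf Vsf rs I N b fl b').Ok ρ)
    (hfl : FlOk yf rs I N b fl b') (hrs : 2 ≤ rs) {i : ℕ} (hi : i ≤ I) {C1 η : ℝ}
    (hS : 1 / η ≤ Sgood rs i) (hrS : (rr 8 rs i : ℝ) + aS 8 rs i ≤ η * Sgood rs i)
    (hNS : Sgood rs i / η ≤ rr 8 rs I)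
    (hhub : ∀ τ ∈ Set.Icc 0 (stOf (World lam yf Vsf rs I N b fl b') i (Sgood rs i)).S,
      ∀ (κ : Type) [Fintype κ] (F : κ → Tor N → ℝ) (Λf : ℝ), 0 ≤ Λf → VecLip F Λf →
        (stOf (World lam yf Vsf rs I N b fl b') i (Sgood rs i)).Yg E F τ ≤
          η / (stOf (World lam yf Vsf rs I N b fl b') i (Sgood rs i)).S ^ 8 *
            ((stOf (World lam yf Vsf rs I N b fl b') i (Sgood rs i)).Phi E F τ +
              Λf ^ 2 * (N : ℝ) ^ 2))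
    (hen : ∀ τ ∈ Set.Icc 0 (stOf (World lam yf Vsf rs I N b fl b') i (Sgood rs i)).S,
      ∀ (κ : Type) [Fintype κ] (F : κ → Tor N → ℝ) (Λf : ℝ), 0 ≤ Λf → VecLip F Λf →
        (stOf (World lam yf Vsf rs I N b fl b') i (Sgood rs i)).Phi E F τ ≤
          C1 * (Λf ^ 2 * (N : ℝ) ^ 2))
    (hshare : ∀ τ ∈ Set.Icc 0 (stOf (World lam yf Vsf rs I N b fl b') i (Sgood rs i)).S,
      (stOf (World lam yf Vsf rs I N b fl b') i (Sgood rs i)).EM E
        (stOf (World lam yf Vsf rs I N b fl b') i (Sgood rs i)).u τ ≤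
        Real.exp (-((stOf (World lam yf Vsf rs I N b fl b') i (Sgood rs i)).S / η)) *
          (N : ℝ) ^ 2)
    (hweg : ∀ τ ∈ Set.Icc 0 (stOf (World lam yf Vsf rs I N b fl b') i (Sgood rs i)).S,
      (stOf (World lam yf Vsf rs I N b fl b') i (Sgood rs i)).EM E
        (eT (stOf (World lam yf Vsf rs I N b fl b') i (Sgood rs i)).u
          (stOf (World lam yf Vsf rs I N b fl b') i (Sgood rs i)).w τ) τ ≤
        C1 * Real.exp (-τ) * (N : ℝ) ^ 2)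
    (hm0 : (stOf (World lam yf Vsf rs I N b fl b') i (Sgood rs i)).M4 E 0 ≤
      Real.exp (η * (stOf (World lam yf Vsf rs I N b fl b') i (Sgood rs i)).S) * (N : ℝ) ^ 2)
    (hm4 : ∀ τ ∈ Set.Icc 0 (stOf (World lam yf Vsf rs I N b fl b') i (Sgood rs i)).S,
      (stOf (World lam yf Vsf rs I N b fl b') i (Sgood rs i)).M4 E τ ≤
        Real.exp (C1 * (stOf (World lam yf Vsf rs I N b fl b') i (Sgood rs i)).S) *
          (N : ℝ) ^ 2) :
    (stOf (World lam yf Vsf rs I N b fl b') i (Sgood rs i)).Ok lam E C1 η where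
  p_nonneg := hD.p_nonneg
  p_sum := hD.p_sum
  prob := hD.prob
  supp := supp_of hA
  dens := dens_of hA
  mov := mov_of hA hD hi
  u_pos := ⟨b, hfl.b_pos, fun l x => hD.us_ge (i + 1) l x⟩
  w_nonneg := fun l x => hD.toOk.Ws_nonneg (show i + 1 ≤ I + 1 by omega) l x
  w_ge := fun l x hw => (Real.exp_le_exp.2 (neg_le_neg hrS)).trans (w_lower hD hi hw)
  e_le := fun l x => (e_upper hD hrs hfl.b'_le hi l x).trans (four_e0S_le hrs i)
  S_ge := hS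
  N_ge := (Real.exp_le_exp.2 hNS).trans hfl.N_ge
  hub := hhub
  en_le := hen
  share := hshare
  weg := hweg
  m4_start := hm0
  m4 := hm4

end asm

/-- (k2), (k3): hub and energy bound of the homogeneous worlds -/
def HubEn : Prop :=
  ∀ (lam E : ℝ) (yf : ℕ → ℤ × ℤ) (Vsf : ℕ → ℤ × ℤ → ℝ), 0 < lam → |E| < 4 + lam →
    KTop lam E yf Vsf →
    ∃ R : ℕ, 2 ≤ R ∧ ∀ rs, R ≤ rs → ∃ C1 : ℝ, 0 < C1 ∧ ∀ η : ℝ, 0 < η →
      ∃ i₀ : ℕ, ∀ i, i₀ ≤ i → ∀ I, i + 2 ≤ I → ∀ (N : ℕ) [NeZero N] (b : ℝ),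
        FlOk yf rs I N b (fun _ _ => b) b →
        (∀ τ ∈ Set.Icc 0 (Sgood rs i), ∀ (κ : Type) [Fintype κ] (F : κ → Tor N → ℝ) (Λf : ℝ),
          0 ≤ Λf → VecLip F Λf →
          (stOf (World lam yf Vsf rs I N b (fun _ _ => b) b) i (Sgood rs i)).Yg E F τ ≤
            η / (Sgood rs i) ^ 8 *
              ((stOf (World lam yf Vsf rs I N b (fun _ _ => b) b) i (Sgood rs i)).Phi E F τ +
                Λf ^ 2 * (N : ℝ) ^ 2)) ∧
        ∀ τ ∈ Set.Icc 0 (Sgood rs i), ∀ (κ : Type) [Fintype κ] (F : κ → Tor N → ℝ) (Λf : ℝ),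
          0 ≤ Λf → VecLip F Λf →
          (stOf (World lam yf Vsf rs I N b (fun _ _ => b) b) i (Sgood rs i)).Phi E F τ ≤
            C1 * (Λf ^ 2 * (N : ℝ) ^ 2)

/-- (k4'), (k5): static share and Wegner -/
def ShareWeg : Prop :=
  ∀ (lam E : ℝ) (yf : ℕ → ℤ × ℤ) (Vsf : ℕ → ℤ × ℤ → ℝ), 0 < lam → |E| < 4 + lam →
    KTop lam E yf Vsf →
    ∃ R : ℕ, 2 ≤ R ∧ ∀ rs, R ≤ rs → ∃ C1 : ℝ, 0 < C1 ∧ ∀ η : ℝ, 0 < η →
      ∃ i₀ : ℕ, ∀ i, i₀ ≤ i → ∀ I, i + 2 ≤ I → ∀ (N : ℕ) [NeZero N] (b : ℝ),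
        FlOk yf rs I N b (fun _ _ => b) b →
        (∀ τ ∈ Set.Icc 0 (Sgood rs i),
          (stOf (World lam yf Vsf rs I N b (fun _ _ => b) b) i (Sgood rs i)).EM E
            (stOf (World lam yf Vsf rs I N b (fun _ _ => b) b) i (Sgood rs i)).u τ ≤
            Real.exp (-(Sgood rs i / η)) * (N : ℝ) ^ 2) ∧
        ∀ τ ∈ Set.Icc 0 (Sgood rs i),
          (stOf (World lam yf Vsf rs I N b (fun _ _ => b) b) i (Sgood rs i)).EM E
            (eT (stOf (World lam yf Vsf rs I N b (fun _ _ => b) b) i (Sgood rs i)).u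
              (stOf (World lam yf Vsf rs I N b (fun _ _ => b) b) i (Sgood rs i)).w τ) τ ≤
            C1 * Real.exp (-τ) * (N : ℝ) ^ 2

/-- (k7): the part `Q0` -/
def Q0Part (Q0 : ∀ (N : ℕ) [NeZero N], StW N → ℝ → (ℝ → ℝ) → ℝ → Prop) : Prop :=
  ∀ (lam E : ℝ) (yf : ℕ → ℤ × ℤ) (Vsf : ℕ → ℤ × ℤ → ℝ), 0 < lam → |E| < 4 + lam →
    KTop lam E yf Vsf →
    ∃ R : ℕ, 2 ≤ R ∧ ∀ rs, R ≤ rs → ∃ gf : ℝ → ℝ, (∀ ρ, 1 ≤ gf ρ) ∧
      ∀ η : ℝ, 0 < η → ∃ i₀ : ℕ, ∀ i, i₀ ≤ i → ∀ I, i + 2 ≤ I → ∀ (N : ℕ) [NeZero N] (b : ℝ),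
        FlOk yf rs I N b (fun _ _ => b) b →
        Q0 N (stOf (World lam yf Vsf rs I N b (fun _ _ => b) b) i (Sgood rs i)) E gf η

/-- **the assembly of `KBind`** -/
theorem kbind_of {Q0 : ∀ (N : ℕ) [NeZero N], StW N → ℝ → (ℝ → ℝ) → ℝ → Prop}
    (h1 : HubEn) (h2 : ShareWeg) (h3 : Q0Part Q0) : KBind Q0 := by
  intro lam E yf Vsf hlam hE hK
  obtain ⟨R0, hR0, -, hK0⟩ := hK 0
  obtain ⟨R1, hR1, h1⟩ := h1 lam E yf Vsf hlam hE hK
  obtain ⟨R2, hR2, h2⟩ := h2 lam E yf Vsf hlam hE hK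
  obtain ⟨R3, hR3, h3⟩ := h3 lam E yf Vsf hlam hE hK
  refine ⟨max (max R0 R1) (max R2 R3), hR0.trans ((le_max_left _ _).trans (le_max_left _ _)),
    fun rs hrs => ?_⟩
  have hrs0 : R0 ≤ rs := ((le_max_left _ _).trans (le_max_left _ _)).trans hrs
  have hrs1 : R1 ≤ rs := ((le_max_right _ _).trans (le_max_left _ _)).trans hrs
  have hrs2 : R2 ≤ rs := ((le_max_left _ _).trans (le_max_right _ _)).trans hrs
  have hrs3 : R3 ≤ rs := ((le_max_right _ _).trans (le_max_right _ _)).trans hrs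
  have hrs' : 2 ≤ rs := hR0.trans hrs0
  obtain ⟨C1, hC1, h1⟩ := h1 rs hrs1
  obtain ⟨C2, hC2, h2⟩ := h2 rs hrs2
  obtain ⟨gf, hgf, h3⟩ := h3 rs hrs3
  set C : ℝ := max (max C1 C2) 5 with hC
  have hCC1 : C1 ≤ C := (le_max_left _ _).trans (le_max_left _ _)
  have hCC2 : C2 ≤ C := (le_max_right _ _).trans (le_max_left _ _)
  have hC5 : 5 ≤ C := le_max_right _ _
  refine ⟨C, gf, by linarith, hgf, fun η hη => ?_⟩
  obtain ⟨i1, h1⟩ := h1 η hη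
  obtain ⟨i2, h2⟩ := h2 η hη
  obtain ⟨i3, h3⟩ := h3 η hη
  obtain ⟨i4, h4⟩ := ev_long hrs' hη
  obtain ⟨i5, h5⟩ := m4_start_ok hrs' hη
  obtain ⟨i6, h6⟩ := m4_ok hrs' hC5
  obtain ⟨i7, h7⟩ := ev_NS hrs' hη
  refine ⟨max i7 (max (max i1 i2) (max (max i3 i4) (max i5 i6))),
    fun i hi' I hI N _ b hfl => ?_⟩
  have e7 : i7 ≤ i := (le_max_left _ _).trans hi'
  have hi : max (max i1 i2) (max (max i3 i4) (max i5 i6)) ≤ i := (le_max_right _ _).trans hi'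
  have e1 : i1 ≤ i := ((le_max_left _ _).trans (le_max_left _ _)).trans hi
  have e2 : i2 ≤ i := ((le_max_right _ _).trans (le_max_left _ _)).trans hi
  have e3 : i3 ≤ i :=
    (((le_max_left _ _).trans (le_max_left _ _)).trans (le_max_right _ _)).trans hi
  have e4 : i4 ≤ i :=
    (((le_max_right _ _).trans (le_max_left _ _)).trans (le_max_right _ _)).trans hi
  have e5 : i5 ≤ i :=
    (((le_max_left _ _).trans (le_max_right _ _)).trans (le_max_right _ _)).trans hi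
  have e6 : i6 ≤ i :=
    (((le_max_right _ _).trans (le_max_right _ _)).trans (le_max_right _ _)).trans hi
  have hiI : i ≤ I := by omega
  obtain ⟨hA, hK0⟩ := hK0 rs hrs0 I
  obtain ⟨hD, -⟩ := hK0 N b (fun _ _ => b) b hfl
  obtain ⟨hhub, hen⟩ := h1 i e1 I hI N b hfl
  obtain ⟨hshare, hweg⟩ := h2 i e2 I hI N b hfl
  obtain ⟨hS, hrS⟩ := h4 i e4
  refine ⟨?_, h3 i e3 I hI N b hfl⟩
  refine ok_of hA hD hfl hrs' hiI hS hrS (h7 i e7 I hI) hhub ?_ hshare ?_ (h5 i e5 hiI hD E)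
    (h6 i e6 hiI hD E)
  · exact fun τ hτ κ _ F Λf hΛ hF => (hen τ hτ κ F Λf hΛ hF).trans
      (mul_le_mul_of_nonneg_right hCC1 (by positivity))
  · exact fun τ hτ => (hweg τ hτ).trans (mul_le_mul_of_nonneg_right
      (mul_le_mul_of_nonneg_right hCC2 (Real.exp_pos _).le) (by positivity))

end P365T2.H704
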