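import Vale.Agent.P365.T2.H704.HubEn
import Vale.Agent.P365.T2.H701.ShareWeg
import Vale.Agent.P365.T2.H908.Q0Part

/-!
# P365-T2: `KBind` for 784's `Q0`: the K side is closed (helper704)
-/

set_option linter.all false

namespace P365T2.H704

/-- **K-BIND** -/
theorem kbind : P365T2.H213.KBind P365T2.H784.Q0 :=
  kbind_of hubEn P365T2.H701.shareWeg P365T2.H908.q0Part

end P365T2.H704
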