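import Vale.Agent.P365.T2.H704.Bind
import Vale.Agent.P365.T2.H548.Kfields

/-!
# P365-T2, K-BIND: the input `HubEn` of `kbind_of` from 548's fields (helper704)
-/

set_option linter.all false

namespace P365T2.H704

open P365L P365O P365T1 P365L.TL Matrix Complex MeasureTheory Filter Topology Set
open Vale.Agent.P365.J376 P365T2.SeqG P365V4.Free P365T2.H213
open scoped ComplexConjugate ENNReal

theorem hubEn : HubEn := by
  intro lam E yf Vsf hlam hE hK
  obtain ⟨R, hR, h⟩ := P365T2.H548.kbind_hub_en hlam hK (K := 65) le_rfl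
  refine ⟨R, hR, fun rs hrs => ⟨max (P365V4.K685.C1K lam E rs) 1, by positivity, fun η hη => ?_⟩⟩
  obtain ⟨i₀, h⟩ := h rs hrs η hη
  refine ⟨i₀, fun i hi I hI N _ b hfl => ?_⟩
  obtain ⟨-, h1, h2, -⟩ := h i hi I (by omega) N b hfl
  exact ⟨h1, fun τ hτ κ _ F Λf hΛ hF => (h2 τ hτ κ F Λf hΛ hF).trans
    (mul_le_mul_of_nonneg_right (le_max_left _ _) (by positivity))⟩

end P365T2.H704
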